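import Mathlib
import Vale.Agent.P235.ST.H317.Defs

/-! P235, (ST) O(1): row r16 `partB`, from `exists_level` and `law_zero`. helper832 -/

namespace Vale.Agent.P235.STO.H832

open SimpleGraph

variable {V : Type} (W : LWorld V)

/-- target pair of scale function `ρ` (same as in the rows) -/
def Tgt [Fintype V] (W : LWorld V) (ρ : V → ℝ) (z y : V) : Prop :=
  z ∈ W.N ∧ y ∈ W.N ∧ W.u z = W.u y ∧ W.idx z ≤ W.idx y ∧ r0 ≤ W.d z y ∧
    W.nxt ρ z < W.d z y ∧ W.d z y ≤ ρ z ∧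
    (kap * ρ z < 2 * W.d z y ∨ ∃ k m, m < 16 ∧ inList (ρ z) k ∧ W.serves k m z y)

section aux

theorem sum_walk {G : SimpleGraph V} {Ω : Type} [Fintype Ω] (w : Ω → V → ℝ) (c : ℝ)
    (h : ∀ x y, G.Adj x y → ∑ o, |w o x - w o y| ≤ c) {x y : V} (g : G.Walk x y) :
    ∑ o, |w o x - w o y| ≤ g.length * c := by
  induction g with
  | nil => simp
  | @cons a b d hab p ih =>
    have h1 := h a b hab
    have h2 : ∑ o, |w o a - w o d| ≤ ∑ o, |w o a - w o b| + ∑ o, |w o b - w o d| := by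
      rw [← Finset.sum_add_distrib]
      exact Finset.sum_le_sum fun o _ => abs_sub_le _ _ _
    rw [SimpleGraph.Walk.length_cons]
    push_cast
    nlinarith

theorem d_symm (x y : V) : W.d x y = W.d y x := by
  unfold LWorld.d
  rw [SimpleGraph.dist_comm]

theorem d_tri (x y z : V) : W.d x z ≤ W.d x y + W.d y z := by
  unfold LWorld.d
  exact_mod_cast W.conn.dist_triangle

/-- the conclusion of part B from the law of level `0` and the level of a pair -/
theorem partB_of [Fintype V]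
    (hlev : ∀ z y : V, z ∈ W.N → y ∈ W.N → W.u z = W.u y → W.idx z ≤ W.idx y → r0 ≤ W.d z y →
      ∃ i, Tgt W (W.rho i) z y)
    (hlaw : ∃ (Ω : Type) (_ : Fintype Ω) (_ : Nonempty Ω) (w : Ω → V → ℝ),
      (∀ o, W.Inv (W.rho 0) (w o)) ∧
      (∀ x, ∑ o, w o x = Fintype.card Ω * (W.u x : ℝ)) ∧
      (∀ x y, W.G.Adj x y → ∑ o, |w o x - w o y| = Fintype.card Ω) ∧
      ∀ j, 0 ≤ j → ∀ z y, Tgt W (W.rho j) z y →
        Fintype.card Ω * (1 / 2 ^ 180 * W.d z y) ≤ ∑ o, |w o z - w o y|) :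
    ∃ (Ω : Type) (_ : Fintype Ω) (_ : Nonempty Ω) (w : Ω → V → ℝ),
      (∀ x y, W.G.Adj x y → ∑ o, |w o x - w o y| ≤ Fintype.card Ω) ∧
      ∀ x ∈ W.N, ∀ y ∈ W.N, 2 ^ 92 ≤ W.d x y →
        Fintype.card Ω * (1 / 2 ^ 190 * W.d x y) ≤ ∑ o, |w o x - w o y| := by
  obtain ⟨Ω, hF, hne, w, -, hmean, hedge, hpair⟩ := hlaw
  refine ⟨Ω, hF, hne, w, fun x y h => le_of_eq (hedge x y h), ?_⟩
  intro x hx y hy hd
  have hc : (0 : ℝ) < Fintype.card Ω := by exact_mod_cast Fintype.card_pos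
  have hsymm : ∀ a b : V, ∑ o, |w o a - w o b| = ∑ o, |w o b - w o a| := fun a b =>
    Finset.sum_congr rfl fun o _ => abs_sub_comm _ _
  -- pairs at the same level
  have hlevel : ∀ a ∈ W.N, ∀ b ∈ W.N, W.u a = W.u b → r0 ≤ W.d a b →
      Fintype.card Ω * (1 / 2 ^ 180 * W.d a b) ≤ ∑ o, |w o a - w o b| := by
    intro a ha b hb hu hr
    rcases le_total (W.idx a) (W.idx b) with hi | hi
    · obtain ⟨i, hi'⟩ := hlev a b ha hb hu hi hr
      exact hpair i (Nat.zero_le _) a b hi'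
    · obtain ⟨i, hi'⟩ := hlev b a hb ha hu.symm hi (by rw [d_symm]; exact hr)
      have := hpair i (Nat.zero_le _) b a hi'
      rw [hsymm a b, d_symm W a b]
      exact this
  by_cases hbig : 1 / 2 ^ 182 * W.d x y ≤ |(W.u x : ℝ) - W.u y|
  · have h1 : Fintype.card Ω * |(W.u x : ℝ) - W.u y| ≤ ∑ o, |w o x - w o y| := by
      calc (Fintype.card Ω : ℝ) * |(W.u x : ℝ) - W.u y|
          = |∑ o, (w o x - w o y)| := by
            rw [Finset.sum_sub_distrib, hmean, hmean, ← mul_sub, abs_mul,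
              abs_of_pos hc]
        _ ≤ ∑ o, |w o x - w o y| := Finset.abs_sum_le_sum_abs _ _
    have hd0 : 0 ≤ W.d x y := le_trans (by norm_num) hd
    have h2 : 1 / 2 ^ 190 * W.d x y ≤ 1 / 2 ^ 182 * W.d x y :=
      mul_le_mul_of_nonneg_right (by norm_num) hd0
    exact le_trans (mul_le_mul_of_nonneg_left (h2.trans hbig) hc.le) h1
  · push Not at hbig
    obtain ⟨z, hz, huz⟩ := W.L_level y hy x hx
    have hzN := (W.L_sub y hy z hz).1
    -- walk from z to y along the line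
    have hwalk : ∃ g : W.G.Walk z y, (g.length : ℤ) = |W.u y - W.u z| := by
      rcases le_total (W.u z) (W.u y) with h | h
      · obtain ⟨g, hg, -⟩ := W.L_path y hy z hz y (W.mem_L y hy) h
        exact ⟨g, by rw [hg, abs_of_nonneg (by omega)]⟩
      · obtain ⟨g, hg, -⟩ := W.L_path y hy y (W.mem_L y hy) z hz h
        refine ⟨g.reverse, ?_⟩
        rw [SimpleGraph.Walk.length_reverse, hg, abs_of_nonpos (by omega)]
        ring
    obtain ⟨g, hg⟩ := hwalk
    have hlen : (g.length : ℝ) = |(W.u x : ℝ) - W.u y| := by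
      have : ((g.length : ℤ) : ℝ) = ((|W.u y - W.u z| : ℤ) : ℝ) := by rw [hg]
      rw [huz] at this
      push_cast at this
      rw [this, abs_sub_comm]
    have hzy : W.d z y ≤ |(W.u x : ℝ) - W.u y| := by
      rw [← hlen]
      unfold LWorld.d
      exact_mod_cast SimpleGraph.dist_le g
    have hsum : ∑ o, |w o z - w o y| ≤ g.length * (Fintype.card Ω : ℝ) :=
      sum_walk w _ (fun a b hab => le_of_eq (hedge a b hab)) g
    have hd0 : 0 ≤ W.d x y := le_trans (by norm_num) hd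
    have hxz : (3 / 4) * W.d x y ≤ W.d x z := by
      have h1 := d_tri W x z y
      have h2 : (1 : ℝ) / 2 ^ 182 * W.d x y ≤ 1 / 4 * W.d x y :=
        mul_le_mul_of_nonneg_right (by norm_num) hd0
      linarith
    have hr : r0 ≤ W.d x z := by
      have h1 : r0 ≤ (3 / 4 : ℝ) * 2 ^ 92 := by
        unfold r0
        norm_num
      linarith
    have h3 := hlevel x hx z hzN huz.symm hr
    have h4 : ∑ o, |w o x - w o z| ≤ ∑ o, |w o x - w o y| + ∑ o, |w o z - w o y| := by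
      rw [← Finset.sum_add_distrib]
      refine Finset.sum_le_sum fun o _ => ?_
      rw [abs_sub_comm (w o z) (w o y)]
      exact abs_sub_le _ _ _
    have h5 : ∑ o, |w o z - w o y| ≤ Fintype.card Ω * (1 / 2 ^ 182 * W.d x y) := by
      rw [hlen] at hsum
      calc _ ≤ _ := hsum
        _ = Fintype.card Ω * |(W.u x : ℝ) - W.u y| := by ring
        _ ≤ _ := mul_le_mul_of_nonneg_left hbig.le hc.le
    have h6 : (Fintype.card Ω : ℝ) * (1 / 2 ^ 180 * (3 / 4 * W.d x y)) ≤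
        Fintype.card Ω * (1 / 2 ^ 180 * W.d x z) :=
      mul_le_mul_of_nonneg_left (mul_le_mul_of_nonneg_left hxz (by norm_num)) hc.le
    have h7 : (Fintype.card Ω : ℝ) * (1 / 2 ^ 190 * W.d x y) ≤
        Fintype.card Ω * (1 / 2 ^ 180 * (3 / 4 * W.d x y)) -
          Fintype.card Ω * (1 / 2 ^ 182 * W.d x y) := by
      rw [← mul_sub]
      refine mul_le_mul_of_nonneg_left ?_ hc.le
      have : (1 : ℝ) / 2 ^ 180 * (3 / 4 * W.d x y) - 1 / 2 ^ 182 * W.d x y =
          (1 / 2 ^ 180 * (3 / 4) - 1 / 2 ^ 182) * W.d x y := by ring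
      rw [this]
      exact mul_le_mul_of_nonneg_right (by norm_num) hd0
    linarith

end aux

end Vale.Agent.P235.STO.H832
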