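import Vale.Agent.P235.ST.H317.Defs2
import Vale.Agent.P235.ST.H832.PartB

/-! P235, (ST) O(1): row r16 `partB` over the official `LWorld.tgt`, `LWorld.Law`. helper832 -/

namespace Vale.Agent.P235.STO.H832

open SimpleGraph

variable {V : Type} [Fintype V] (W : LWorld V)

/-- `partB` from the literal conclusions of `exists_level` and `law_zero` -/
theorem partB
    (exists_level : ∀ {z y : V}, z ∈ W.N → y ∈ W.N → W.u z = W.u y → W.idx z ≤ W.idx y →
      r0 ≤ W.d z y → ∃ i, W.tgt (W.rho i) z y)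
    (law_zero : W.Law 0) :
    ∃ (Ω : Type) (_ : Fintype Ω) (_ : Nonempty Ω) (w : Ω → V → ℝ),
      (∀ x y, W.G.Adj x y → ∑ o, |w o x - w o y| ≤ Fintype.card Ω) ∧
      ∀ x ∈ W.N, ∀ y ∈ W.N, 2 ^ 92 ≤ W.d x y →
        Fintype.card Ω * (1 / 2 ^ 190 * W.d x y) ≤ ∑ o, |w o x - w o y| :=
  partB_of W (fun _ _ h1 h2 h3 h4 h5 => exists_level h1 h2 h3 h4 h5) law_zero

end Vale.Agent.P235.STO.H832
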